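import Vale.Agent.P229.C3.Global

/-!
# P229: a smooth metric on the plane with no `C³` local isometric immersion into `ℝ³`
-/

namespace Vale.Agent.Results.P229.NoC3Immersion

open scoped ContDiff RealInnerProductSpace

/-- There is a `C^∞` Riemannian metric `g` on `ℝ²` such that no open neighbourhood of the origin
admits a `C³` isometric immersion into Euclidean three-space. -/
theorem result : ∃ g : ℝ × ℝ → Matrix (Fin 2) (Fin 2) ℝ,
    (∀ i j, ContDiff ℝ ∞ (fun z => g z i j)) ∧ (∀ z, (g z).PosDef) ∧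
    ∀ U : Set (ℝ × ℝ), IsOpen U → (0 : ℝ × ℝ) ∈ U → ¬ ∃ F : ℝ × ℝ → EuclideanSpace ℝ (Fin 3),
      ContDiffOn ℝ 3 F U ∧ ∀ z ∈ U, ∀ i j : Fin 2,
        ⟪fderiv ℝ F z (![(1, 0), (0, 1)] i), fderiv ℝ F z (![(1, 0), (0, 1)] j)⟫ = g z i j :=
  Vale.Agent.P229.C3.main

end Vale.Agent.Results.P229.NoC3Immersion
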